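import Mathlib

/-!
Mollification at a variable scale of a map which is Hölder on a ball: smoothness in scale and
position, distance to the original map, and the Lipschitz bound `s ^ (α - 1)` at scale `s`.
-/

noncomputable section

namespace Vale.Agent.P127.Holder

open MeasureTheory Set Function Metric Filter ContinuousLinearMap
open scoped Topology NNReal Convolution

variable {m : ℕ}

/-- The standard mollifier, supported in the closed unit ball. -/
def bump (m : ℕ) (z : EuclideanSpace ℝ (Fin m)) : ℝ :=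
  (⟨1 / 2, 1, by norm_num, by norm_num⟩ : ContDiffBump (0 : EuclideanSpace ℝ (Fin m))).normed
    volume z

theorem bump_nonneg (z : (EuclideanSpace ℝ (Fin m))) : 0 ≤ bump m z := ContDiffBump.nonneg_normed _ z

theorem bump_eq_zero {z : (EuclideanSpace ℝ (Fin m))} (hz : 1 ≤ ‖z‖) : bump m z = 0 := by
  by_contra h
  have h' : z ∈ Function.support (bump m) := h
  rw [show Function.support (bump m) = ball (0 : (EuclideanSpace ℝ (Fin m))) 1 from ContDiffBump.support_normed_eq _,
    mem_ball_zero_iff] at h'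
  linarith

theorem integral_bump : ∫ z, bump m z = 1 := ContDiffBump.integral_normed _

theorem contDiff_bump {n : ℕ∞} : ContDiff ℝ n (bump m) := ContDiffBump.contDiff_normed _

/-- The mollifier at scale `s`. -/
def kern (s : ℝ) (z : (EuclideanSpace ℝ (Fin m))) : ℝ := (s ^ m)⁻¹ * bump m (s⁻¹ • z)

theorem kern_nonneg {s : ℝ} (hs : 0 < s) (z : (EuclideanSpace ℝ (Fin m))) : 0 ≤ kern s z :=
  mul_nonneg (by positivity) (bump_nonneg _)

theorem kern_eq_zero {s : ℝ} (hs : 0 < s) {z : (EuclideanSpace ℝ (Fin m))} (hz : s ≤ ‖z‖) : kern s z = 0 := by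
  rw [kern, bump_eq_zero, mul_zero]
  rw [norm_smul, norm_inv, Real.norm_of_nonneg hs.le, le_inv_mul_iff₀ hs]
  simpa using hz

theorem integral_kern {s : ℝ} (hs : 0 < s) : ∫ z : (EuclideanSpace ℝ (Fin m)), kern s z = 1 := by
  simp only [kern]
  rw [integral_const_mul, Measure.integral_comp_inv_smul_of_nonneg volume _ hs.le, integral_bump,
    finrank_euclideanSpace_fin, smul_eq_mul, mul_one, inv_mul_cancel₀ (by positivity)]

theorem kern_scale {s : ℝ} (hs : 0 < s) (t : ℝ) (z : (EuclideanSpace ℝ (Fin m))) :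
    kern t z = (s ^ m)⁻¹ * kern (t / s) (s⁻¹ • z) := by
  have h1 : (t / s)⁻¹ • (s⁻¹ • z) = t⁻¹ • z := by
    rw [smul_smul]
    congr 1
    rw [inv_div]
    field_simp
  simp only [kern, h1, div_pow]
  field_simp

theorem contDiffOn_kern {n : ℕ∞} :
    ContDiffOn ℝ n (fun q : ℝ × (EuclideanSpace ℝ (Fin m)) => kern q.1 q.2) (Ioi (0 : ℝ) ×ˢ univ) := by
  have h1 : ContDiffOn ℝ n (fun q : ℝ × (EuclideanSpace ℝ (Fin m)) => q.1⁻¹) (Ioi (0 : ℝ) ×ˢ univ) :=
    contDiffOn_fst.inv fun q hq => hq.1.ne'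
  exact ((contDiffOn_fst.pow m).inv fun q hq => (pow_pos hq.1 m).ne').mul
    (contDiff_bump.comp_contDiffOn (h1.smul contDiffOn_snd))

theorem continuous_kern {s : ℝ} : Continuous fun z : (EuclideanSpace ℝ (Fin m)) => kern s z :=
  continuous_const.mul ((contDiff_bump (n := 0)).continuous.comp (by fun_prop))

theorem hasCompactSupport_kern {s : ℝ} (hs : 0 < s) :
    HasCompactSupport fun z : (EuclideanSpace ℝ (Fin m)) => kern s z :=
  HasCompactSupport.intro (isCompact_closedBall (0 : (EuclideanSpace ℝ (Fin m))) s) fun z hz => kern_eq_zero hs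
    (by simp only [mem_closedBall, dist_zero_right, not_le] at hz; exact hz.le)

theorem integrable_kern {s : ℝ} (hs : 0 < s) : Integrable fun z : (EuclideanSpace ℝ (Fin m)) => kern s z :=
  continuous_kern.integrable_of_hasCompactSupport (hasCompactSupport_kern hs)

theorem integral_kern_sub {s : ℝ} (hs : 0 < s) (x : (EuclideanSpace ℝ (Fin m))) : ∫ y, kern s (x - y) = 1 := by
  rw [integral_sub_left_eq_self (fun z : (EuclideanSpace ℝ (Fin m)) => kern s z) volume x, integral_kern hs]

/-- The mollification of `g`, cut off outside the ball of radius two. -/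
def mollify (g : (EuclideanSpace ℝ (Fin m)) → (EuclideanSpace ℝ (Fin m))) (q : ℝ × (EuclideanSpace ℝ (Fin m))) : (EuclideanSpace ℝ (Fin m)) :=
  ∫ y, kern q.1 (q.2 - y) • (closedBall (0 : (EuclideanSpace ℝ (Fin m))) 2).indicator g y

theorem integrable_cutoff {g : (EuclideanSpace ℝ (Fin m)) → (EuclideanSpace ℝ (Fin m))} (hg : ContinuousOn g (closedBall 0 2)) :
    Integrable ((closedBall (0 : (EuclideanSpace ℝ (Fin m))) 2).indicator g) :=
  (integrable_indicator_iff measurableSet_closedBall).2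
    (hg.integrableOn_compact (isCompact_closedBall 0 2))

theorem integrable_kern_smul {g : (EuclideanSpace ℝ (Fin m)) → (EuclideanSpace ℝ (Fin m))} (hg : ContinuousOn g (closedBall 0 2)) {s : ℝ}
    (hs : 0 < s) (x : (EuclideanSpace ℝ (Fin m))) :
    Integrable fun y => kern s (x - y) • (closedBall (0 : (EuclideanSpace ℝ (Fin m))) 2).indicator g y := by
  obtain ⟨C, hC⟩ := (continuous_kern (s := s)).bounded_above_of_compact_support
    (hasCompactSupport_kern (m := m) hs)
  exact (integrable_cutoff hg).bdd_smul (φ := fun y => kern s (x - y)) C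
    (continuous_kern.comp (by fun_prop)).aestronglyMeasurable
    (Eventually.of_forall fun y => hC (x - y))

theorem contDiffOn_mollify {g : (EuclideanSpace ℝ (Fin m)) → (EuclideanSpace ℝ (Fin m))} (hg : ContinuousOn g (closedBall 0 2)) :
    ContDiffOn ℝ 2 (mollify g) (Ioo (0 : ℝ) 2 ×ˢ univ) := by
  have h := contDiffOn_convolution_right_with_param (μ := (volume : Measure (EuclideanSpace ℝ (Fin m))))
    (lsmul ℝ ℝ : ℝ →L[ℝ] (EuclideanSpace ℝ (Fin m)) →L[ℝ] (EuclideanSpace ℝ (Fin m))).flip (n := 2) (g := fun p z => kern p z)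
    (isOpen_Ioo (a := (0 : ℝ)) (b := 2)) (isCompact_closedBall (0 : (EuclideanSpace ℝ (Fin m))) 2)
    (fun p z hp hz => kern_eq_zero hp.1 (by
      simp only [mem_closedBall, dist_zero_right, not_le] at hz
      exact hp.2.le.trans hz.le))
    (integrable_cutoff hg).locallyIntegrable
    (contDiffOn_kern.mono (prod_mono Ioo_subset_Ioi_self subset_rfl))
  exact h

variable {g : EuclideanSpace ℝ (Fin m) → EuclideanSpace ℝ (Fin m)} {L α : ℝ}

/-- The Hölder condition used below. -/
def HolderBound (g : (EuclideanSpace ℝ (Fin m)) → (EuclideanSpace ℝ (Fin m))) (L α : ℝ) : Prop :=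
  ∀ x ∈ closedBall (0 : (EuclideanSpace ℝ (Fin m))) 2, ∀ y ∈ closedBall (0 : (EuclideanSpace ℝ (Fin m))) 2, ‖g x - g y‖ ≤ L * ‖x - y‖ ^ α

theorem HolderBound.continuousOn (hg : HolderBound g L α) (hα : 0 < α) :
    ContinuousOn g (closedBall 0 2) := by
  intro x hx
  rw [ContinuousWithinAt, tendsto_iff_norm_sub_tendsto_zero]
  refine squeeze_zero' (Eventually.of_forall fun _ => norm_nonneg _)
    (eventually_nhdsWithin_of_forall fun y hy => hg y hy x hx) ?_
  have : Tendsto (fun y => L * ‖y - x‖ ^ α) (𝓝 x) (𝓝 (L * ‖x - x‖ ^ α)) :=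
    ((continuous_id.sub continuous_const).norm.rpow_const fun _ => Or.inr hα.le).const_smul L
      |>.tendsto x
  rw [sub_self, norm_zero, Real.zero_rpow hα.ne', mul_zero] at this
  exact this.mono_left nhdsWithin_le_nhds

theorem mollify_sub_eq (hg : ContinuousOn g (closedBall 0 2)) {s : ℝ} (hs : 0 < s) (x v : (EuclideanSpace ℝ (Fin m))) :
    mollify g (s, x) - v =
      ∫ y, kern s (x - y) • ((closedBall (0 : (EuclideanSpace ℝ (Fin m))) 2).indicator g y - v) := by
  simp only [smul_sub]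
  rw [integral_sub (integrable_kern_smul hg hs x)
    (((integrable_kern hs).comp_sub_left x).smul_const v), integral_smul_const,
    integral_kern_sub hs, one_smul]
  rfl

theorem norm_mollify_sub_le (hg : HolderBound g L α) (hα : 0 < α) (hL : 0 ≤ L) {s : ℝ}
    (hs : 0 < s) {x : (EuclideanSpace ℝ (Fin m))} (hx : ‖x‖ + s ≤ 2) : ‖mollify g (s, x) - g x‖ ≤ L * s ^ α := by
  rw [mollify_sub_eq (hg.continuousOn hα) hs]
  calc _ ≤ ∫ y, kern s (x - y) * (L * s ^ α) := by
        refine norm_integral_le_of_norm_le (((integrable_kern hs).comp_sub_left x).mul_const _)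
          (Eventually.of_forall fun y => ?_)
        rw [norm_smul, Real.norm_of_nonneg (kern_nonneg hs _)]
        rcases le_or_gt s ‖x - y‖ with h | h
        · simp [kern_eq_zero hs h]
        · refine mul_le_mul_of_nonneg_left ?_ (kern_nonneg hs _)
          have hy : y ∈ closedBall (0 : (EuclideanSpace ℝ (Fin m))) 2 := by
            rw [mem_closedBall, dist_zero_right]
            linarith [norm_sub_norm_le y x, norm_sub_rev y x]
          have hx' : x ∈ closedBall (0 : (EuclideanSpace ℝ (Fin m))) 2 := by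
            rw [mem_closedBall, dist_zero_right]; linarith
          rw [indicator_of_mem hy]
          refine (hg y hy x hx').trans ?_
          rw [norm_sub_rev]
          gcongr
    _ = L * s ^ α := by rw [integral_mul_const, integral_kern_sub hs, one_mul]

theorem exists_lipschitz_bound (hg : HolderBound g L α) (hα : 0 < α) (hL : 0 ≤ L) :
    ∃ C : ℝ, 0 ≤ C ∧ ∀ s : ℝ, 0 < s → ∀ x : (EuclideanSpace ℝ (Fin m)), ‖x‖ + 3 * s ≤ 2 → ∀ t : ℝ, |t - s| ≤ s / 2 →
      ∀ z : (EuclideanSpace ℝ (Fin m)), ‖z - x‖ ≤ s / 2 →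
        ‖mollify g (t, z) - mollify g (s, x)‖ ≤ C * s ^ (α - 1) * (|t - s| + ‖z - x‖) := by
  obtain ⟨C₁, hC₁⟩ := ((contDiffOn_kern (m := m) (n := 1)).mono
      (prod_mono (fun t ht => lt_of_lt_of_le (by norm_num) ht.1) (subset_univ _))).exists_lipschitzOnWith
    one_ne_zero ((convex_Icc (1 / 2 : ℝ) (3 / 2)).prod (convex_closedBall (0 : (EuclideanSpace ℝ (Fin m))) 4))
    (isCompact_Icc.prod (isCompact_closedBall _ _))
  refine ⟨C₁ * (L * 3 ^ α) * 3 ^ m * volume.real (ball (0 : (EuclideanSpace ℝ (Fin m))) 1), by positivity, ?_⟩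
  intro s hs x hx t ht z hz
  have ht0 : 0 < t := by linarith [abs_le.1 ht]
  have hg' := hg.continuousOn hα
  have hx' : x ∈ closedBall (0 : (EuclideanSpace ℝ (Fin m))) 2 := by rw [mem_closedBall, dist_zero_right]; linarith
  set gb := (closedBall (0 : (EuclideanSpace ℝ (Fin m))) 2).indicator g
  have heq : mollify g (t, z) - mollify g (s, x) =
      ∫ y, (kern t (z - y) - kern s (x - y)) • (gb y - g x) := by
    have h1 := mollify_sub_eq hg' ht0 z (g x)
    have h2 := mollify_sub_eq hg' hs x (g x)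
    have h0 : ∀ {r : ℝ}, 0 < r → ∀ u : (EuclideanSpace ℝ (Fin m)), Integrable fun y => kern r (u - y) • (gb y - g x) :=
      fun hr u => by
        simp only [smul_sub]
        exact (integrable_kern_smul hg' hr u).sub (((integrable_kern hr).comp_sub_left u).smul_const _)
    simp only [sub_smul]
    rw [integral_sub (h0 ht0 z) (h0 hs x), ← h1, ← h2]
    abel
  set Δ := |t - s| + ‖z - x‖
  have hout : ∀ y ∉ closedBall x (3 * s),
      (kern t (z - y) - kern s (x - y)) • (gb y - g x) = 0 := by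
    intro y hy
    rw [mem_closedBall, dist_eq_norm, norm_sub_rev, not_le] at hy
    have h1 : t ≤ ‖z - y‖ := by
      have := norm_sub_le_norm_sub_add_norm_sub x z y
      rw [norm_sub_rev x z] at this
      linarith [abs_le.1 ht]
    rw [kern_eq_zero ht0 h1, kern_eq_zero hs (by linarith), sub_self, zero_smul]
  rw [heq, ← setIntegral_eq_integral_of_forall_compl_eq_zero hout]
  have hsα : 0 < s ^ α := Real.rpow_pos_of_pos hs α
  refine (norm_setIntegral_le_of_norm_le_const (C := C₁ * (s ^ m)⁻¹ * s⁻¹ * Δ * (L * (3 ^ α * s ^ α)))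
    measure_closedBall_lt_top fun y hy => ?_).trans (le_of_eq ?_)
  · rw [mem_closedBall, dist_eq_norm, norm_sub_rev] at hy
    have hy' : y ∈ closedBall (0 : (EuclideanSpace ℝ (Fin m))) 2 := by
      rw [mem_closedBall, dist_zero_right]
      linarith [norm_sub_norm_le y x, norm_sub_rev y x]
    rw [norm_smul, kern_scale hs t, kern_scale hs s, div_self hs.ne', ← mul_sub, norm_mul,
      Real.norm_of_nonneg (by positivity : 0 ≤ (s ^ m)⁻¹)]
    have hmem1 : (t / s, s⁻¹ • (z - y)) ∈ Icc (1 / 2 : ℝ) (3 / 2) ×ˢ closedBall (0 : (EuclideanSpace ℝ (Fin m))) 4 := by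
      refine ⟨⟨?_, ?_⟩, ?_⟩
      · rw [le_div_iff₀ hs]; linarith [abs_le.1 ht]
      · rw [div_le_iff₀ hs]; linarith [abs_le.1 ht]
      · rw [mem_closedBall, dist_zero_right, norm_smul, norm_inv, Real.norm_of_nonneg hs.le,
          inv_mul_le_iff₀ hs]
        linarith [norm_sub_le_norm_sub_add_norm_sub z x y]
    have hmem2 : ((1 : ℝ), s⁻¹ • (x - y)) ∈ Icc (1 / 2 : ℝ) (3 / 2) ×ˢ closedBall (0 : (EuclideanSpace ℝ (Fin m))) 4 := by
      refine ⟨⟨by norm_num, by norm_num⟩, ?_⟩
      rw [mem_closedBall, dist_zero_right, norm_smul, norm_inv, Real.norm_of_nonneg hs.le,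
        inv_mul_le_iff₀ hs]
      linarith
    have hk : |kern (t / s) (s⁻¹ • (z - y)) - kern 1 (s⁻¹ • (x - y))| ≤ C₁ * (s⁻¹ * Δ) := by
      refine ((Real.dist_eq _ _).ge.trans (hC₁.dist_le_mul _ hmem1 _ hmem2)).trans ?_
      refine mul_le_mul_of_nonneg_left ?_ C₁.2
      have e1 : dist (t / s) 1 = s⁻¹ * |t - s| := by
        rw [Real.dist_eq, show t / s - 1 = s⁻¹ * (t - s) by field_simp, abs_mul,
          abs_of_pos (inv_pos.2 hs)]
      have e2 : dist (s⁻¹ • (z - y)) (s⁻¹ • (x - y)) = s⁻¹ * ‖z - x‖ := by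
        rw [dist_eq_norm, ← smul_sub, norm_smul, norm_inv, Real.norm_of_nonneg hs.le,
          sub_sub_sub_cancel_right]
      rw [Prod.dist_eq, e1, e2, mul_add]
      exact max_le_add_of_nonneg (by positivity) (by positivity)
    have hg2 : ‖gb y - g x‖ ≤ L * (3 ^ α * s ^ α) := by
      rw [show gb y = g y from indicator_of_mem hy' g, ← Real.mul_rpow (by norm_num) hs.le]
      refine (hg y hy' x hx').trans ?_
      rw [norm_sub_rev]
      gcongr
    calc (s ^ m)⁻¹ * |kern (t / s) (s⁻¹ • (z - y)) - kern 1 (s⁻¹ • (x - y))| * ‖gb y - g x‖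
        ≤ (s ^ m)⁻¹ * (C₁ * (s⁻¹ * Δ)) * (L * (3 ^ α * s ^ α)) := by gcongr
      _ = _ := by ring
  · rw [Measure.addHaar_real_closedBall _ _ (by positivity), finrank_euclideanSpace_fin,
      Real.rpow_sub hs, Real.rpow_one, mul_pow]
    field_simp

end Vale.Agent.P127.Holder
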