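import Mathlib

/-!
The Jacobian determinant is a null Lagrangian: for a homotopy `H` of class C² and a weight `η`,
the integral of `η ∘ H` times the Jacobian does not change, as long as the product is compactly
supported in the open ball.
-/

noncomputable section

namespace Vale.Agent.P127.Holder

open MeasureTheory Set Function Metric Filter
open scoped Topology

variable {m : ℕ}

/-- The determinant, as a continuous multilinear function of the rows. -/
def rowsDet (m : ℕ) :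
    ContinuousMultilinearMap ℝ (fun _ : Fin m => EuclideanSpace ℝ (Fin m)) ℝ where
  toMultilinearMap := (Matrix.detRowAlternating (n := Fin m) (R := ℝ)).toMultilinearMap.compLinearMap
    fun _ => (WithLp.linearEquiv 2 ℝ (Fin m → ℝ)).toLinearMap
  cont := by
    show Continuous fun w : Fin m → EuclideanSpace ℝ (Fin m) =>
      Matrix.det (Matrix.of fun i k => w i k)
    exact Continuous.matrix_det (by fun_prop)

theorem rowsDet_apply (w : Fin m → (EuclideanSpace ℝ (Fin m))) :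
    rowsDet m w = Matrix.det (Matrix.of fun i k => w i k) := rfl

theorem rowsDet_swap (w : Fin m → (EuclideanSpace ℝ (Fin m))) {i j : Fin m} (h : i ≠ j) :
    rowsDet m (w ∘ Equiv.swap i j) = -rowsDet m w :=
  (Matrix.detRowAlternating (n := Fin m) (R := ℝ)).map_swap (fun i => WithLp.ofLp (w i)) h

theorem sum_cramer (w : Fin m → (EuclideanSpace ℝ (Fin m))) (v : (EuclideanSpace ℝ (Fin m))) :
    ∑ i, rowsDet m (update w i v) • w i = rowsDet m w • v := by
  set A : Matrix (Fin m) (Fin m) ℝ := (Matrix.of fun i k => w i k).transpose with hA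
  have hcol : ∀ i, Matrix.cramer A (WithLp.ofLp v) i = rowsDet m (update w i v) := by
    intro i
    rw [Matrix.cramer_apply, rowsDet_apply,
      ← Matrix.det_transpose (Matrix.of fun j k => update w i v j k)]
    congr 1
    ext k j
    by_cases hj : j = i
    · subst hj; simp [Matrix.updateCol_apply, hA]
    · simp [Matrix.updateCol_apply, hA, hj]
  ext k
  have := congrFun (Matrix.mulVec_cramer A (WithLp.ofLp v)) k
  simp only [Matrix.mulVec, dotProduct, Pi.smul_apply, smul_eq_mul, hcol] at this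
  rw [hA, Matrix.det_transpose, ← rowsDet_apply] at this
  simp only [Matrix.transpose_apply, Matrix.of_apply] at this
  simp [this.symm, mul_comm]

/-- Spatial partial derivatives of `H`. -/
def rows (H : ℝ × (EuclideanSpace ℝ (Fin m)) → (EuclideanSpace ℝ (Fin m))) (q : ℝ × (EuclideanSpace ℝ (Fin m))) (i : Fin m) : (EuclideanSpace ℝ (Fin m)) :=
  fderiv ℝ H q (0, EuclideanSpace.single i 1)

/-- Derivative of `H` in the homotopy parameter. -/
def speed (H : ℝ × (EuclideanSpace ℝ (Fin m)) → (EuclideanSpace ℝ (Fin m))) (q : ℝ × (EuclideanSpace ℝ (Fin m))) : (EuclideanSpace ℝ (Fin m)) := fderiv ℝ H q (1, 0)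

/-- The weighted Jacobian. -/
def density (H : ℝ × (EuclideanSpace ℝ (Fin m)) → (EuclideanSpace ℝ (Fin m))) (η : (EuclideanSpace ℝ (Fin m)) → ℝ) (q : ℝ × (EuclideanSpace ℝ (Fin m))) : ℝ := η (H q) * rowsDet m (rows H q)

/-- The weighted flux in direction `i`. -/
def flux (H : ℝ × (EuclideanSpace ℝ (Fin m)) → (EuclideanSpace ℝ (Fin m))) (η : (EuclideanSpace ℝ (Fin m)) → ℝ) (i : Fin m) (q : ℝ × (EuclideanSpace ℝ (Fin m))) : ℝ :=
  η (H q) * rowsDet m (update (rows H q) i (speed H q))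

theorem fderiv_density_eq {H : ℝ × (EuclideanSpace ℝ (Fin m)) → (EuclideanSpace ℝ (Fin m))} {η : (EuclideanSpace ℝ (Fin m)) → ℝ} {p : ℝ × (EuclideanSpace ℝ (Fin m))} (hH : ContDiffAt ℝ 2 H p)
    (hη : DifferentiableAt ℝ η (H p)) :
    fderiv ℝ (density H η) p (1, 0) =
      ∑ i, fderiv ℝ (flux H η i) p (0, EuclideanSpace.single i 1) := by
  set S := fderiv ℝ (fderiv ℝ H) p
  set e : Fin m → ℝ × (EuclideanSpace ℝ (Fin m)) := fun i => (0, EuclideanSpace.single i 1) with he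
  have hsymm : ∀ a b, S a b = S b a := fun a b => hH.isSymmSndFDerivAt (by simp) a b
  have hS : HasFDerivAt (fderiv ℝ H) S p :=
    ((hH.fderiv_right (m := 1) (by norm_num)).differentiableAt one_ne_zero).hasFDerivAt
  have happ : ∀ u : ℝ × (EuclideanSpace ℝ (Fin m)), HasFDerivAt (fun q => fderiv ℝ H q u)
      ((ContinuousLinearMap.apply ℝ (EuclideanSpace ℝ (Fin m)) u).comp S) p := fun u =>
    (ContinuousLinearMap.apply ℝ (EuclideanSpace ℝ (Fin m)) u).hasFDerivAt.comp p hS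
  have hηH : HasFDerivAt (fun q => η (H q))
      ((fderiv ℝ η (H p)).comp (fderiv ℝ H p)) p :=
    hη.hasFDerivAt.comp p (hH.differentiableAt two_ne_zero).hasFDerivAt
  have hJ : HasFDerivAt (fun q => rowsDet m (rows H q))
      (((rowsDet m).linearDeriv (rows H p)).comp
        (ContinuousLinearMap.pi fun j => (ContinuousLinearMap.apply ℝ (EuclideanSpace ℝ (Fin m)) (e j)).comp S)) p :=
    ((rowsDet m).hasFDerivAt (rows H p)).comp p (hasFDerivAt_pi.2 fun j => happ (e j))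
  have hP : ∀ i, HasFDerivAt (fun q => rowsDet m (update (rows H q) i (speed H q)))
      (((rowsDet m).linearDeriv (update (rows H p) i (speed H p))).comp
        (ContinuousLinearMap.pi fun j => (ContinuousLinearMap.apply ℝ (EuclideanSpace ℝ (Fin m))
          (update e i ((1 : ℝ), (0 : (EuclideanSpace ℝ (Fin m)))) j)).comp S)) p := fun i => by
    refine ((rowsDet m).hasFDerivAt (update (rows H p) i (speed H p))).comp p
      (hasFDerivAt_pi.2 fun j => ?_)
    by_cases hj : j = i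
    · subst hj; simpa [speed] using happ ((1 : ℝ), (0 : (EuclideanSpace ℝ (Fin m))))
    · simpa [rows, he, hj] using happ (e j)
  have hl : fderiv ℝ (density H η) p (1, 0) =
      η (H p) * (∑ j, rowsDet m (update (rows H p) j (S (1, 0) (e j)))) +
        rowsDet m (rows H p) * fderiv ℝ η (H p) (speed H p) := by
    rw [show fderiv ℝ (density H η) p = _ from (hηH.mul hJ).fderiv]
    simp [speed, ContinuousMultilinearMap.linearDeriv_apply]
  have hr : ∀ i, fderiv ℝ (flux H η i) p (e i) =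
      η (H p) * (∑ j, rowsDet m (update (update (rows H p) i (speed H p)) j
        (S (e i) (update e i ((1 : ℝ), (0 : (EuclideanSpace ℝ (Fin m)))) j)))) +
        rowsDet m (update (rows H p) i (speed H p)) * fderiv ℝ η (H p) (rows H p i) := by
    intro i
    rw [show fderiv ℝ (flux H η i) p = _ from (hηH.mul (hP i)).fderiv]
    simp [rows, he, ContinuousMultilinearMap.linearDeriv_apply]
  set T : Fin m → Fin m → ℝ := fun i j => if j = i then 0 else
    rowsDet m (update (update (rows H p) i (speed H p)) j (S (e i) (e j))) with hT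
  have hTanti : ∀ i j, T j i = -T i j := by
    intro i j
    by_cases hij : i = j
    · subst hij; simp [hT]
    · simp only [hT, if_neg hij, if_neg (Ne.symm hij)]
      rw [← rowsDet_swap _ hij, hsymm (e j) (e i)]
      congr 1
      ext k : 1
      rcases eq_or_ne k i with rfl | hki
      · simp [hij, Ne.symm hij]
      rcases eq_or_ne k j with rfl | hkj
      · simp [hki, hij, Ne.symm hki]
      · simp [Equiv.swap_apply_of_ne_of_ne hki hkj, hki, hkj]
  have hT0 : ∑ i, ∑ j, T i j = 0 := by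
    have h1 : ∑ i, ∑ j, T i j = -∑ i, ∑ j, T i j := by
      conv_lhs => rw [Finset.sum_comm]
      rw [← Finset.sum_neg_distrib]
      refine Finset.sum_congr rfl fun i _ => ?_
      rw [← Finset.sum_neg_distrib]
      exact Finset.sum_congr rfl fun j _ => hTanti i j
    linarith
  have hsplit : ∀ i, (∑ j, rowsDet m (update (update (rows H p) i (speed H p)) j
        (S (e i) (update e i ((1 : ℝ), (0 : (EuclideanSpace ℝ (Fin m)))) j)))) =
      rowsDet m (update (rows H p) i (S (1, 0) (e i))) + ∑ j, T i j := by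
    intro i
    rw [← Finset.add_sum_erase _ _ (Finset.mem_univ i),
      ← Finset.add_sum_erase _ (T i) (Finset.mem_univ i)]
    simp only [update_self, update_idem, hT, if_true, zero_add]
    rw [hsymm (e i) ((1 : ℝ), (0 : (EuclideanSpace ℝ (Fin m))))]
    congr 1
    refine Finset.sum_congr rfl fun j hj => ?_
    have hji := Finset.ne_of_mem_erase hj
    simp [hji]
  have hcr : ∑ i, rowsDet m (update (rows H p) i (speed H p)) * fderiv ℝ η (H p) (rows H p i) =
      rowsDet m (rows H p) * fderiv ℝ η (H p) (speed H p) := by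
    simpa using congrArg (fderiv ℝ η (H p)) (sum_cramer (rows H p) (speed H p))
  rw [hl]
  simp only [show ∀ i : Fin m, fderiv ℝ (flux H η i) p (0, EuclideanSpace.single i 1) = _ from hr,
    hsplit, Finset.sum_add_distrib, ← Finset.mul_sum, hT0, add_zero, hcr]

theorem integral_fderiv_apply_eq_zero {P : (EuclideanSpace ℝ (Fin m)) → ℝ} (hP : ContDiff ℝ 1 P)
    (hc : HasCompactSupport P) (v : (EuclideanSpace ℝ (Fin m))) : ∫ x, fderiv ℝ P x v = 0 := by
  have h1 : Integrable P := hP.continuous.integrable_of_hasCompactSupport hc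
  have h2 : Integrable fun x => fderiv ℝ P x v :=
    ((hP.continuous_fderiv one_ne_zero).clm_apply continuous_const).integrable_of_hasCompactSupport
      (hc.fderiv_apply ℝ v)
  have := integral_mul_fderiv_eq_neg_fderiv_mul_of_integrable (μ := volume)
    (f := fun _ : (EuclideanSpace ℝ (Fin m)) => (1 : ℝ)) (g := P) (v := v) (by simp) (by simpa using h2) (by simpa using h1)
    (fun x _ => differentiableAt_const _) (fun x _ => (hP.differentiable one_ne_zero).differentiableAt)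
  simpa using this

/-- Extension by zero outside the cylinder over the open ball. -/
def cut (φ : ℝ × (EuclideanSpace ℝ (Fin m)) → ℝ) : ℝ × (EuclideanSpace ℝ (Fin m)) → ℝ := ((univ : Set ℝ) ×ˢ ball (0 : (EuclideanSpace ℝ (Fin m))) 1).indicator φ

theorem cut_eventuallyEq {φ : ℝ × (EuclideanSpace ℝ (Fin m)) → ℝ} {q : ℝ × (EuclideanSpace ℝ (Fin m))} (hq : q.2 ∈ ball (0 : (EuclideanSpace ℝ (Fin m))) 1) :
    cut φ =ᶠ[𝓝 q] φ := by
  filter_upwards [(isOpen_univ.prod isOpen_ball).mem_nhds ⟨mem_univ q.1, hq⟩] with z hz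
  exact indicator_of_mem hz φ

theorem cut_eq_zero {φ : ℝ × (EuclideanSpace ℝ (Fin m)) → ℝ} {K : Set (EuclideanSpace ℝ (Fin m))}
    (hφ : ∀ θ ∈ Ioo (0 : ℝ) 2, ∀ x ∈ ball (0 : (EuclideanSpace ℝ (Fin m))) 1, x ∉ K → φ (θ, x) = 0)
    {θ : ℝ} (hθ : θ ∈ Ioo (0 : ℝ) 2) {x : (EuclideanSpace ℝ (Fin m))} (hx : x ∉ K) : cut φ (θ, x) = 0 := by
  rw [cut, indicator_apply_eq_zero]
  exact fun h => hφ θ hθ x h.2 hx

theorem cut_eventually_zero {φ : ℝ × (EuclideanSpace ℝ (Fin m)) → ℝ} {K : Set (EuclideanSpace ℝ (Fin m))} (hK : IsClosed K)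
    (hφ : ∀ θ ∈ Ioo (0 : ℝ) 2, ∀ x ∈ ball (0 : (EuclideanSpace ℝ (Fin m))) 1, x ∉ K → φ (θ, x) = 0)
    {q : ℝ × (EuclideanSpace ℝ (Fin m))} (hq : q.1 ∈ Ioo (0 : ℝ) 2) (hx : q.2 ∉ K) : cut φ =ᶠ[𝓝 q] fun _ => 0 := by
  filter_upwards [(isOpen_Ioo.prod hK.isOpen_compl).mem_nhds ⟨hq, hx⟩] with z hz
  exact cut_eq_zero hφ hz.1 hz.2

theorem contDiffOn_cut {φ : ℝ × (EuclideanSpace ℝ (Fin m)) → ℝ} {K : Set (EuclideanSpace ℝ (Fin m))} (hK : IsClosed K) (hKb : K ⊆ ball 0 1)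
    (hφ : ∀ θ ∈ Ioo (0 : ℝ) 2, ∀ x ∈ ball (0 : (EuclideanSpace ℝ (Fin m))) 1, x ∉ K → φ (θ, x) = 0)
    (hs : ContDiffOn ℝ 1 φ (Ioo (0 : ℝ) 2 ×ˢ ball (0 : (EuclideanSpace ℝ (Fin m))) 1)) :
    ContDiffOn ℝ 1 (cut φ) (Ioo (0 : ℝ) 2 ×ˢ univ) := by
  intro q hq
  refine ContDiffAt.contDiffWithinAt ?_
  by_cases hx : q.2 ∈ K
  · exact (hs.contDiffAt ((isOpen_Ioo.prod isOpen_ball).mem_nhds ⟨hq.1, hKb hx⟩)).congr_of_eventuallyEq
      (cut_eventuallyEq (hKb hx))
  · exact contDiffAt_const.congr_of_eventuallyEq (cut_eventually_zero hK hφ hq.1 hx)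

theorem hasDerivAt_integral_of_compact {F : ℝ × (EuclideanSpace ℝ (Fin m)) → ℝ} {K : Set (EuclideanSpace ℝ (Fin m))} (hK : IsCompact K)
    (hF : ContDiffOn ℝ 1 F (Ioo (0 : ℝ) 2 ×ˢ (univ : Set (EuclideanSpace ℝ (Fin m)))))
    (hz : ∀ θ ∈ Ioo (0 : ℝ) 2, ∀ x, x ∉ K → F (θ, x) = 0)
    {θ : ℝ} (hθ : θ ∈ Ioo (0 : ℝ) 2) :
    HasDerivAt (fun t => ∫ x, F (t, x)) (∫ x, fderiv ℝ F (θ, x) (1, 0)) θ := by
  have hU : IsOpen (Ioo (0 : ℝ) 2 ×ˢ (univ : Set (EuclideanSpace ℝ (Fin m)))) := isOpen_Ioo.prod isOpen_univ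
  have hc : ContinuousOn (fun q : ℝ × (EuclideanSpace ℝ (Fin m)) => fderiv ℝ F q (1, 0)) (Ioo (0 : ℝ) 2 ×ˢ univ) :=
    (hF.continuousOn_fderiv_of_isOpen hU le_rfl).clm_apply continuousOn_const
  have hfd : ∀ t ∈ Ioo (0 : ℝ) 2, ∀ x, HasDerivAt (fun s => F (s, x))
      (fderiv ℝ F (t, x) (1, 0)) t := fun t ht x =>
    ((hF.differentiableOn one_ne_zero).differentiableAt
      (hU.mem_nhds ⟨ht, mem_univ x⟩)).hasFDerivAt.comp_hasDerivAt t
      ((hasDerivAt_id t).prodMk (hasDerivAt_const t x))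
  have hzero : ∀ t ∈ Ioo (0 : ℝ) 2, ∀ x, x ∉ K → fderiv ℝ F (t, x) (1, 0) = 0 := by
    intro t ht x hx
    have h : (fun s => F (s, x)) =ᶠ[𝓝 t] fun _ => 0 := by
      filter_upwards [Ioo_mem_nhds ht.1 ht.2] with s hs using hz s hs x hx
    exact (hfd t ht x).unique ((hasDerivAt_const t (0 : ℝ)).congr_of_eventuallyEq h)
  have hFc : ∀ t ∈ Ioo (0 : ℝ) 2, Continuous fun x => F (t, x) := fun t ht =>
    hF.continuousOn.comp_continuous (by fun_prop) fun x => ⟨ht, mem_univ x⟩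
  obtain ⟨ε, hε, hball⟩ := Metric.nhds_basis_closedBall.mem_iff.1 (Ioo_mem_nhds hθ.1 hθ.2)
  obtain ⟨C, hC⟩ := ((isCompact_closedBall θ ε).prod hK).exists_bound_of_continuousOn
    (hc.mono (prod_mono hball (subset_univ K)))
  refine (hasDerivAt_integral_of_dominated_loc_of_deriv_le (μ := volume)
    (F := fun t x => F (t, x)) (F' := fun t x => fderiv ℝ F (t, x) (1, 0))
    (bound := K.indicator fun _ => C) (closedBall_mem_nhds θ hε) ?_ ?_ ?_ ?_ ?_ ?_).2
  · filter_upwards [Ioo_mem_nhds hθ.1 hθ.2] with t ht using (hFc t ht).aestronglyMeasurable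
  · exact (hFc θ hθ).integrable_of_hasCompactSupport (HasCompactSupport.intro hK (hz θ hθ))
  · exact (hc.comp_continuous (by fun_prop) fun x => ⟨hθ, mem_univ x⟩).aestronglyMeasurable
  · refine Eventually.of_forall fun x t ht => ?_
    by_cases hx : x ∈ K
    · rw [indicator_of_mem hx]
      exact hC (t, x) ⟨ht, hx⟩
    · rw [indicator_of_notMem hx, hzero t (hball ht) x hx, norm_zero]
  · exact (integrable_indicator_iff hK.measurableSet).2 (integrableOn_const hK.measure_lt_top.ne)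
  · exact Eventually.of_forall fun x t ht => hfd t (hball ht) x

theorem contDiffOn_fderiv_apply {H : ℝ × (EuclideanSpace ℝ (Fin m)) → (EuclideanSpace ℝ (Fin m))}
    (hH : ContDiffOn ℝ 2 H (Ioo (0 : ℝ) 2 ×ˢ ball (0 : (EuclideanSpace ℝ (Fin m))) 1)) (u : ℝ × (EuclideanSpace ℝ (Fin m))) :
    ContDiffOn ℝ 1 (fun q => fderiv ℝ H q u) (Ioo (0 : ℝ) 2 ×ˢ ball (0 : (EuclideanSpace ℝ (Fin m))) 1) :=
  (ContinuousLinearMap.apply ℝ (EuclideanSpace ℝ (Fin m)) u).contDiff.comp_contDiffOn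
    (hH.fderiv_of_isOpen (isOpen_Ioo.prod isOpen_ball) (by norm_num))

theorem contDiffOn_density {H : ℝ × (EuclideanSpace ℝ (Fin m)) → (EuclideanSpace ℝ (Fin m))} {η : (EuclideanSpace ℝ (Fin m)) → ℝ}
    (hH : ContDiffOn ℝ 2 H (Ioo (0 : ℝ) 2 ×ˢ ball (0 : (EuclideanSpace ℝ (Fin m))) 1)) (hη : ContDiff ℝ 1 η) :
    ContDiffOn ℝ 1 (density H η) (Ioo (0 : ℝ) 2 ×ˢ ball (0 : (EuclideanSpace ℝ (Fin m))) 1) :=
  (hη.comp_contDiffOn (hH.of_le one_le_two)).mul ((rowsDet m).contDiff.comp_contDiffOn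
    (contDiffOn_pi.2 fun _ => contDiffOn_fderiv_apply hH _))

theorem contDiffOn_flux {H : ℝ × (EuclideanSpace ℝ (Fin m)) → (EuclideanSpace ℝ (Fin m))} {η : (EuclideanSpace ℝ (Fin m)) → ℝ}
    (hH : ContDiffOn ℝ 2 H (Ioo (0 : ℝ) 2 ×ˢ ball (0 : (EuclideanSpace ℝ (Fin m))) 1)) (hη : ContDiff ℝ 1 η) (i : Fin m) :
    ContDiffOn ℝ 1 (flux H η i) (Ioo (0 : ℝ) 2 ×ˢ ball (0 : (EuclideanSpace ℝ (Fin m))) 1) := by
  refine (hη.comp_contDiffOn (hH.of_le one_le_two)).mul
    ((rowsDet m).contDiff.comp_contDiffOn (contDiffOn_pi.2 fun j => ?_))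
  by_cases hj : j = i
  · subst hj
    simp only [update_self]
    exact contDiffOn_fderiv_apply hH _
  · simp only [update_of_ne hj]
    exact contDiffOn_fderiv_apply hH _

theorem density_eq_zero {H : ℝ × (EuclideanSpace ℝ (Fin m)) → (EuclideanSpace ℝ (Fin m))} {η : (EuclideanSpace ℝ (Fin m)) → ℝ} {q : ℝ × (EuclideanSpace ℝ (Fin m))} (h : η (H q) = 0) :
    density H η q = 0 := by simp [density, h]

theorem flux_eq_zero {H : ℝ × (EuclideanSpace ℝ (Fin m)) → (EuclideanSpace ℝ (Fin m))} {η : (EuclideanSpace ℝ (Fin m)) → ℝ} {q : ℝ × (EuclideanSpace ℝ (Fin m))} (i : Fin m) (h : η (H q) = 0) :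
    flux H η i q = 0 := by simp [flux, h]

theorem integral_fderiv_cut_eq_zero {H : ℝ × (EuclideanSpace ℝ (Fin m)) → (EuclideanSpace ℝ (Fin m))} {η : (EuclideanSpace ℝ (Fin m)) → ℝ}
    (hH : ContDiffOn ℝ 2 H (Ioo (0 : ℝ) 2 ×ˢ ball (0 : (EuclideanSpace ℝ (Fin m))) 1)) (hη : ContDiff ℝ 1 η)
    {K : Set (EuclideanSpace ℝ (Fin m))} (hK : IsCompact K) (hKb : K ⊆ ball 0 1)
    (hvan : ∀ θ ∈ Ioo (0 : ℝ) 2, ∀ x ∈ ball (0 : (EuclideanSpace ℝ (Fin m))) 1, x ∉ K → η (H (θ, x)) = 0)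
    {θ : ℝ} (hθ : θ ∈ Ioo (0 : ℝ) 2) :
    ∫ x, fderiv ℝ (cut (density H η)) (θ, x) (1, 0) = 0 := by
  have hU : IsOpen (Ioo (0 : ℝ) 2 ×ˢ (univ : Set (EuclideanSpace ℝ (Fin m)))) := isOpen_Ioo.prod isOpen_univ
  have hvd : ∀ θ ∈ Ioo (0 : ℝ) 2, ∀ x ∈ ball (0 : (EuclideanSpace ℝ (Fin m))) 1, x ∉ K → density H η (θ, x) = 0 :=
    fun θ hθ x hx hxK => density_eq_zero (hvan θ hθ x hx hxK)
  have hvf : ∀ i, ∀ θ ∈ Ioo (0 : ℝ) 2, ∀ x ∈ ball (0 : (EuclideanSpace ℝ (Fin m))) 1, x ∉ K → flux H η i (θ, x) = 0 :=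
    fun i θ hθ x hx hxK => flux_eq_zero i (hvan θ hθ x hx hxK)
  have hsf : ∀ i, ContDiffOn ℝ 1 (cut (flux H η i)) (Ioo (0 : ℝ) 2 ×ˢ univ) := fun i =>
    contDiffOn_cut hK.isClosed hKb (hvf i) (contDiffOn_flux hH hη i)
  have hs : ∀ i, ContDiff ℝ 1 fun x => cut (flux H η i) (θ, x) := fun i =>
    contDiffOn_univ.1 ((hsf i).comp (contDiff_prodMk_right θ).contDiffOn
      fun x _ => ⟨hθ, mem_univ x⟩)
  have hsupp : ∀ i, HasCompactSupport fun x => cut (flux H η i) (θ, x) := fun i =>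
    HasCompactSupport.intro hK fun x hx => cut_eq_zero (hvf i) hθ hx
  have hcoord : ∀ i x (u : (EuclideanSpace ℝ (Fin m))), fderiv ℝ (fun x => cut (flux H η i) (θ, x)) x u =
      fderiv ℝ (cut (flux H η i)) (θ, x) (0, u) := by
    intro i x u
    have h1 := (((hsf i).differentiableOn one_ne_zero).differentiableAt
      (hU.mem_nhds ⟨hθ, mem_univ x⟩)).hasFDerivAt.comp x (hasFDerivAt_prodMk_right θ x)
    rw [show fderiv ℝ (fun x => cut (flux H η i) (θ, x)) x = _ from h1.fderiv]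
    rfl
  have heq : (fun x => fderiv ℝ (cut (density H η)) (θ, x) (1, 0)) = fun x =>
      ∑ i, fderiv ℝ (fun x => cut (flux H η i) (θ, x)) x (EuclideanSpace.single i 1) := by
    funext x
    simp only [hcoord]
    by_cases hx : x ∈ ball (0 : (EuclideanSpace ℝ (Fin m))) 1
    · have hmem : Ioo (0 : ℝ) 2 ×ˢ ball (0 : (EuclideanSpace ℝ (Fin m))) 1 ∈ 𝓝 ((θ, x) : ℝ × (EuclideanSpace ℝ (Fin m))) :=
        (isOpen_Ioo.prod isOpen_ball).mem_nhds (mk_mem_prod hθ hx)
      have hp : ContDiffAt ℝ 2 H (θ, x) := hH.contDiffAt hmem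
      rw [(cut_eventuallyEq (φ := density H η) (q := (θ, x)) hx).fderiv_eq,
        fderiv_density_eq hp ((hη.differentiable one_ne_zero) (H (θ, x)))]
      exact Finset.sum_congr rfl fun i _ => by
        rw [(cut_eventuallyEq (φ := flux H η i) (q := (θ, x)) hx).fderiv_eq]
    · have hxK : x ∉ K := fun h => hx (hKb h)
      rw [(cut_eventually_zero hK.isClosed hvd (q := (θ, x)) hθ hxK).fderiv_eq]
      refine Eq.trans (by simp) (Finset.sum_eq_zero fun i _ => ?_).symm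
      simp [(cut_eventually_zero hK.isClosed (hvf i) (q := (θ, x)) hθ hxK).fderiv_eq]
  rw [heq, integral_finsetSum]
  · exact Finset.sum_eq_zero fun i _ => integral_fderiv_apply_eq_zero (hs i) (hsupp i) _
  · exact fun i _ => (((hs i).continuous_fderiv one_ne_zero).clm_apply
      continuous_const).integrable_of_hasCompactSupport ((hsupp i).fderiv_apply ℝ _)

/-- If the weighted Jacobian vanishes identically at one parameter, its integral vanishes at all. -/
theorem integral_density_eq_zero {H : ℝ × (EuclideanSpace ℝ (Fin m)) → (EuclideanSpace ℝ (Fin m))} {η : (EuclideanSpace ℝ (Fin m)) → ℝ}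
    (hH : ContDiffOn ℝ 2 H (Ioo (0 : ℝ) 2 ×ˢ ball (0 : (EuclideanSpace ℝ (Fin m))) 1)) (hη : ContDiff ℝ 1 η)
    {K : Set (EuclideanSpace ℝ (Fin m))} (hK : IsCompact K) (hKb : K ⊆ ball 0 1)
    (hvan : ∀ θ ∈ Ioo (0 : ℝ) 2, ∀ x ∈ ball (0 : (EuclideanSpace ℝ (Fin m))) 1, x ∉ K → η (H (θ, x)) = 0)
    {θ₀ : ℝ} (hθ₀ : θ₀ ∈ Ioo (0 : ℝ) 2) (h0 : ∀ x ∈ ball (0 : (EuclideanSpace ℝ (Fin m))) 1, η (H (θ₀, x)) = 0) :
    ∫ x in ball (0 : (EuclideanSpace ℝ (Fin m))) 1, density H η (1, x) = 0 := by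
  have hvd : ∀ θ ∈ Ioo (0 : ℝ) 2, ∀ x ∈ ball (0 : (EuclideanSpace ℝ (Fin m))) 1, x ∉ K → density H η (θ, x) = 0 :=
    fun θ hθ x hx hxK => density_eq_zero (hvan θ hθ x hx hxK)
  have hderiv : ∀ θ ∈ Ioo (0 : ℝ) 2,
      HasDerivAt (fun t => ∫ x, cut (density H η) (t, x)) 0 θ := fun θ hθ => by
    have h := hasDerivAt_integral_of_compact hK
      (contDiffOn_cut hK.isClosed hKb hvd (contDiffOn_density hH hη))
      (fun t ht x hx => cut_eq_zero hvd ht hx) hθ
    rwa [integral_fderiv_cut_eq_zero hH hη hK hKb hvan hθ] at h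
  have hcst := isOpen_Ioo.is_const_of_deriv_eq_zero isPreconnected_Ioo
    (fun t ht => (hderiv t ht).differentiableAt.differentiableWithinAt)
    (fun t ht => (hderiv t ht).deriv) (by norm_num : (1 : ℝ) ∈ Ioo (0 : ℝ) 2) hθ₀
  have hind : ∀ t x, cut (density H η) (t, x) =
      (ball (0 : (EuclideanSpace ℝ (Fin m))) 1).indicator (fun y => density H η (t, y)) x := fun t x => by
    by_cases hx : x ∈ ball (0 : (EuclideanSpace ℝ (Fin m))) 1
    · rw [indicator_of_mem hx, cut, indicator_of_mem]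
      exact ⟨mem_univ t, hx⟩
    · rw [indicator_of_notMem hx, cut, indicator_of_notMem]
      exact fun h => hx h.2
  simp only [hind] at hcst
  rw [← integral_indicator measurableSet_ball, hcst]
  refine integral_eq_zero_of_ae (Eventually.of_forall fun x => ?_)
  exact indicator_apply_eq_zero.2 fun hx => density_eq_zero (h0 x hx)

end Vale.Agent.P127.Holder
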