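import Mathlib
import Vale.Agent.P127.Holder.Mollify
import Vale.Agent.P127.Holder.NullLagrange

/-!
If `g` is `α`-Hölder on a ball in ℝ^m and `m * (1 - α) < 1`, then only finitely many of the
images of the unit ball under `x ↦ g x + c • x` are null sets.
-/

noncomputable section

namespace Vale.Agent.P127.Holder

open MeasureTheory Set Function Metric Filter
open scoped Topology NNReal Polynomial

variable {m : ℕ}

/-- The mollification scale: positive in the open ball, zero on the sphere. -/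
def depth (x : EuclideanSpace ℝ (Fin m)) : ℝ := (1 - ‖x‖ ^ 2) / 2

theorem depth_mem {x : (EuclideanSpace ℝ (Fin m))} (hx : x ∈ ball (0 : (EuclideanSpace ℝ (Fin m))) 1) :
    0 < depth x ∧ depth x ≤ 1 - ‖x‖ ∧ (1 - ‖x‖) / 2 ≤ depth x ∧ depth x ≤ 1 / 2 := by
  have h1 := mem_ball_zero_iff.1 hx
  have h0 := norm_nonneg x
  refine ⟨?_, ?_, ?_, ?_⟩ <;> unfold depth <;> nlinarith

/-- The homotopy from `g + c • id` (parameter zero) to its mollification (parameter one). -/
def homot (g : EuclideanSpace ℝ (Fin m) → EuclideanSpace ℝ (Fin m)) (c : ℝ)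
    (q : ℝ × EuclideanSpace ℝ (Fin m)) : EuclideanSpace ℝ (Fin m) :=
  mollify g (q.1 * depth q.2, q.2) + c • q.2

theorem contDiffOn_homot {g : (EuclideanSpace ℝ (Fin m)) → (EuclideanSpace ℝ (Fin m))} (hg : ContinuousOn g (closedBall 0 2)) (c : ℝ) :
    ContDiffOn ℝ 2 (homot g c) (Ioo (0 : ℝ) 2 ×ˢ ball (0 : (EuclideanSpace ℝ (Fin m))) 1) := by
  refine ContDiffOn.add ?_ (contDiff_snd.const_smul c).contDiffOn
  refine (contDiffOn_mollify hg).comp (ContDiffOn.prodMk ?_ contDiffOn_snd) ?_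
  · exact (contDiff_fst.mul
      (((contDiff_const.sub (contDiff_norm_sq ℝ)).div_const 2).comp contDiff_snd)).contDiffOn
  · rintro ⟨θ, x⟩ ⟨hθ, hx⟩
    obtain ⟨h1, _, _, h4⟩ := depth_mem hx
    refine ⟨⟨mul_pos hθ.1 h1, ?_⟩, mem_univ _⟩
    show θ * depth x < 2
    nlinarith [hθ.1, hθ.2]

theorem hasFDerivAt_slice {g : (EuclideanSpace ℝ (Fin m)) → (EuclideanSpace ℝ (Fin m))} (hg : ContinuousOn g (closedBall 0 2)) (c : ℝ) {x : (EuclideanSpace ℝ (Fin m))}
    (hx : x ∈ ball (0 : (EuclideanSpace ℝ (Fin m))) 1) :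
    HasFDerivAt (fun y => homot g c (1, y))
      ((fderiv ℝ (homot g c) (1, x)).comp (ContinuousLinearMap.inr ℝ ℝ (EuclideanSpace ℝ (Fin m)))) x :=
  (((contDiffOn_homot hg c).differentiableOn two_ne_zero).differentiableAt
    ((isOpen_Ioo.prod isOpen_ball).mem_nhds
      (show ((1 : ℝ), x) ∈ Ioo (0 : ℝ) 2 ×ˢ ball (0 : (EuclideanSpace ℝ (Fin m))) 1 from ⟨by norm_num, hx⟩))).hasFDerivAt.comp
    x (hasFDerivAt_prodMk_right 1 x)

theorem rows_homot {g : (EuclideanSpace ℝ (Fin m)) → (EuclideanSpace ℝ (Fin m))} (hg : ContinuousOn g (closedBall 0 2)) (c : ℝ) {x : (EuclideanSpace ℝ (Fin m))}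
    (hx : x ∈ ball (0 : (EuclideanSpace ℝ (Fin m))) 1) :
    rows (homot g c) (1, x) =
      rows (homot g 0) (1, x) + fun i => c • EuclideanSpace.single i (1 : ℝ) := by
  have h : HasFDerivAt (homot g c)
      (fderiv ℝ (homot g 0) (1, x) + c • ContinuousLinearMap.snd ℝ ℝ (EuclideanSpace ℝ (Fin m))) (1, x) := by
    have h0 := (((contDiffOn_homot hg 0).differentiableOn two_ne_zero).differentiableAt
      ((isOpen_Ioo.prod isOpen_ball).mem_nhds
        (show ((1 : ℝ), x) ∈ Ioo (0 : ℝ) 2 ×ˢ ball (0 : (EuclideanSpace ℝ (Fin m))) 1 from ⟨by norm_num, hx⟩))).hasFDerivAt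
    refine (h0.add ((ContinuousLinearMap.snd ℝ ℝ (EuclideanSpace ℝ (Fin m))).hasFDerivAt.const_smul c)).congr_of_eventuallyEq
      (Eventually.of_forall fun q => ?_)
    simp [homot]
  funext i
  simp [rows, h.fderiv]

theorem det_eq_rowsDet (A : (EuclideanSpace ℝ (Fin m)) →L[ℝ] (EuclideanSpace ℝ (Fin m))) :
    rowsDet m (fun i => A (EuclideanSpace.single i 1)) = A.det := by
  rw [rowsDet_apply, ← Matrix.det_transpose, ContinuousLinearMap.det,
    ← LinearMap.det_toMatrix (EuclideanSpace.basisFun (Fin m) ℝ).toBasis]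
  rfl

theorem exists_rows_bound {g : (EuclideanSpace ℝ (Fin m)) → (EuclideanSpace ℝ (Fin m))} {L α : ℝ} (hg : HolderBound g L α) (hα : 0 < α)
    (hL : 0 ≤ L) :
    ∃ B : ℝ, 0 ≤ B ∧ ∀ x ∈ ball (0 : (EuclideanSpace ℝ (Fin m))) 1, ∀ i,
      ‖rows (homot g 0) (1, x) i‖ ≤ B * depth x ^ (α - 1) := by
  obtain ⟨C, hC0, hC⟩ := exists_lipschitz_bound hg hα hL
  refine ⟨2 * C, by positivity, fun x hx i => ?_⟩
  obtain ⟨hd, hd1, -, -⟩ := depth_mem hx
  have hx1 := mem_ball_zero_iff.1 hx
  have hB : 0 ≤ 2 * C * depth x ^ (α - 1) := by positivity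
  have hlip : ∀ᶠ y in 𝓝 x, ‖homot g 0 (1, y) - homot g 0 (1, x)‖ ≤
      2 * C * depth x ^ (α - 1) * ‖y - x‖ := by
    filter_upwards [ball_mem_nhds x (half_pos hd), isOpen_ball.mem_nhds hx] with y hy hy1
    rw [mem_ball, dist_eq_norm] at hy
    have hy1' := mem_ball_zero_iff.1 hy1
    have hdd : |depth y - depth x| ≤ ‖y - x‖ := by
      have h := abs_norm_sub_norm_le y x
      rw [show depth y - depth x = -((‖y‖ - ‖x‖) * ((‖y‖ + ‖x‖) / 2)) by unfold depth; ring,
        abs_neg, abs_mul, abs_of_nonneg (by positivity : 0 ≤ (‖y‖ + ‖x‖) / 2)]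
      calc |‖y‖ - ‖x‖| * ((‖y‖ + ‖x‖) / 2) ≤ ‖y - x‖ * 1 :=
            mul_le_mul h (by linarith) (by positivity) (norm_nonneg _)
        _ = ‖y - x‖ := mul_one _
    have h3 : ‖x‖ + 3 * depth x ≤ 2 := by
      unfold depth; nlinarith [sq_nonneg (3 * ‖x‖ - 1)]
    have := hC (depth x) hd x h3 (depth y) (by linarith) y hy.le
    simp only [homot, one_mul, zero_smul, add_zero]
    refine this.trans ?_
    calc C * depth x ^ (α - 1) * (|depth y - depth x| + ‖y - x‖)
        ≤ C * depth x ^ (α - 1) * (2 * ‖y - x‖) := by gcongr; linarith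
      _ = _ := by ring
  have h := norm_fderiv_le_of_lip' ℝ hB hlip
  rw [(hasFDerivAt_slice (hg.continuousOn hα) 0 hx).fderiv] at h
  calc ‖rows (homot g 0) (1, x) i‖
      = ‖((fderiv ℝ (homot g 0) (1, x)).comp (ContinuousLinearMap.inr ℝ ℝ (EuclideanSpace ℝ (Fin m))))
          (EuclideanSpace.single i 1)‖ := rfl
    _ ≤ 2 * C * depth x ^ (α - 1) * 1 := by
        refine (ContinuousLinearMap.le_opNorm _ _).trans ?_
        rw [PiLp.norm_single, norm_one]
        gcongr
    _ = _ := mul_one _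

theorem integrableOn_depth_rpow (hm : 1 ≤ m) {β : ℝ} (hβ : -1 < β) (hβ0 : β ≤ 0) :
    IntegrableOn (fun x : (EuclideanSpace ℝ (Fin m)) => depth x ^ β) (ball 0 1) := by
  have : Nonempty (Fin m) := Fin.pos_iff_nonempty.1 hm
  have h1 : IntegrableOn (fun x : (EuclideanSpace ℝ (Fin m)) => ((1 - ‖x‖) / 2) ^ β) (ball 0 1) := by
    rw [integrableOn_fun_norm_addHaar volume (f := fun y : ℝ => ((1 - y) / 2) ^ β),
      ← intervalIntegrable_iff_integrableOn_Ioo_of_le zero_le_one]
    have h2 : IntervalIntegrable (fun y : ℝ => (1 - y) ^ β) volume 1 0 := by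
      simpa using (intervalIntegral.intervalIntegrable_rpow' (a := 0) (b := 1) hβ).comp_sub_left 1
    have h3 : IntervalIntegrable (fun y : ℝ => ((1 - y) / 2) ^ β) volume 0 1 := by
      refine ((h2.symm).mul_const ((1 / 2 : ℝ) ^ β)).congr_ae ?_
      filter_upwards [ae_restrict_mem measurableSet_uIoc] with y hy
      rw [uIoc_of_le zero_le_one] at hy
      rw [← Real.mul_rpow (by linarith [hy.2]) (by norm_num)]
      ring_nf
    exact h3.continuousOn_mul (by fun_prop)
  refine Integrable.mono' h1 ?_ ?_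
  · exact ((by unfold depth; fun_prop : Measurable (depth (m := m))).pow_const β).aestronglyMeasurable
  · filter_upwards [ae_restrict_mem measurableSet_ball] with x hx
    obtain ⟨hd, -, hd2, -⟩ := depth_mem hx
    rw [Real.norm_of_nonneg (by positivity)]
    exact Real.rpow_le_rpow_of_nonpos (by linarith [mem_ball_zero_iff.1 hx]) hd2 hβ0

/-- The Jacobian at parameter one. -/
def jac (g : EuclideanSpace ℝ (Fin m) → EuclideanSpace ℝ (Fin m)) (c : ℝ)
    (x : EuclideanSpace ℝ (Fin m)) : ℝ := rowsDet m (rows (homot g c) (1, x))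

theorem continuousOn_rows {g : (EuclideanSpace ℝ (Fin m)) → (EuclideanSpace ℝ (Fin m))} (hg : ContinuousOn g (closedBall 0 2)) (c : ℝ) :
    ContinuousOn (fun x => rows (homot g c) (1, x)) (ball (0 : (EuclideanSpace ℝ (Fin m))) 1) :=
  continuousOn_pi.2 fun i =>
    (contDiffOn_fderiv_apply (contDiffOn_homot hg c) _).continuousOn.comp (by fun_prop)
      fun x hx => ⟨by norm_num, hx⟩

/-- One coefficient of the polynomial `c ↦ ∫ jac g c`. -/
def coef (g : EuclideanSpace ℝ (Fin m) → EuclideanSpace ℝ (Fin m)) (s : Finset (Fin m))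
    (x : EuclideanSpace ℝ (Fin m)) : ℝ :=
  rowsDet m (s.piecewise (rows (homot g 0) (1, x)) fun i => EuclideanSpace.single i 1)

theorem jac_eq_sum {g : (EuclideanSpace ℝ (Fin m)) → (EuclideanSpace ℝ (Fin m))} (hg : ContinuousOn g (closedBall 0 2)) (c : ℝ) {x : (EuclideanSpace ℝ (Fin m))}
    (hx : x ∈ ball (0 : (EuclideanSpace ℝ (Fin m))) 1) : jac g c x = ∑ s, c ^ sᶜ.card * coef g s x := by
  rw [jac, rows_homot hg c hx, ContinuousMultilinearMap.map_add_univ]
  refine Finset.sum_congr rfl fun s _ => ?_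
  set w := rows (homot g 0) (1, x)
  set e : Fin m → (EuclideanSpace ℝ (Fin m)) := fun i => EuclideanSpace.single i (1 : ℝ)
  have h : s.piecewise w (fun i => c • EuclideanSpace.single i (1 : ℝ)) =
      sᶜ.piecewise (fun i => c • s.piecewise w e i) (s.piecewise w e) := by
    funext i
    by_cases hi : i ∈ s <;> simp [hi, e]
  rw [h]
  refine ((rowsDet m).toMultilinearMap.map_piecewise_smul (fun _ => c) (s.piecewise w e) sᶜ).trans ?_
  simp [coef, w, e]

theorem integrableOn_coef (hm : 1 ≤ m) {g : (EuclideanSpace ℝ (Fin m)) → (EuclideanSpace ℝ (Fin m))} {L α : ℝ} (hg : HolderBound g L α) (hα : 0 < α)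
    (hα1 : α ≤ 1) (hL : 0 ≤ L) (hmα : (m : ℝ) * (1 - α) < 1) (s : Finset (Fin m)) :
    IntegrableOn (coef g s) (ball 0 1) := by
  obtain ⟨B, hB, hrows⟩ := exists_rows_bound hg hα hL
  refine Integrable.mono'
    ((integrableOn_depth_rpow hm (β := (m : ℝ) * (α - 1)) (by linarith)
      (mul_nonpos_of_nonneg_of_nonpos (Nat.cast_nonneg m) (by linarith))).const_mul
      (‖rowsDet m‖ * (B + 1) ^ m)) ?_ ?_
  · refine ((rowsDet m).cont.comp_continuousOn (continuousOn_pi.2 fun i => ?_)).aestronglyMeasurable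
      measurableSet_ball
    by_cases hi : i ∈ s
    · simpa [hi] using continuousOn_pi.1 (continuousOn_rows (hg.continuousOn hα) 0) i
    · simpa [hi] using continuousOn_const
  · filter_upwards [ae_restrict_mem measurableSet_ball] with x hx
    obtain ⟨hd, -, -, hd4⟩ := depth_mem hx
    have h1 : 1 ≤ depth x ^ (α - 1) :=
      Real.one_le_rpow_of_pos_of_le_one_of_nonpos hd (by linarith) (by linarith)
    refine ((rowsDet m).le_opNorm _).trans ?_
    rw [mul_assoc]
    refine mul_le_mul_of_nonneg_left ?_ (norm_nonneg _)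
    calc ∏ i, ‖s.piecewise (rows (homot g 0) (1, x)) (fun i => EuclideanSpace.single i 1) i‖
        ≤ ∏ _i : Fin m, (B + 1) * depth x ^ (α - 1) := by
          refine Finset.prod_le_prod (fun i _ => norm_nonneg _) fun i _ => ?_
          by_cases hi : i ∈ s
          · rw [Finset.piecewise_eq_of_mem _ _ _ hi]
            exact (hrows x hx i).trans
              (mul_le_mul_of_nonneg_right (by linarith) (by linarith))
          · rw [Finset.piecewise_eq_of_notMem _ _ _ hi, PiLp.norm_single, norm_one]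
            nlinarith
      _ = _ := by
          rw [Finset.prod_const, Finset.card_univ, Fintype.card_fin, mul_pow, mul_comm (m : ℝ),
            Real.rpow_mul hd.le, Real.rpow_natCast]

theorem integral_jac_eq {g : (EuclideanSpace ℝ (Fin m)) → (EuclideanSpace ℝ (Fin m))} {L α : ℝ} (hm : 1 ≤ m) (hg : HolderBound g L α) (hα : 0 < α)
    (hα1 : α ≤ 1) (hL : 0 ≤ L) (hmα : (m : ℝ) * (1 - α) < 1) (c : ℝ) :
    IntegrableOn (jac g c) (ball 0 1) ∧
      ∫ x in ball (0 : (EuclideanSpace ℝ (Fin m))) 1, jac g c x =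
        ∑ s, c ^ sᶜ.card * ∫ x in ball (0 : (EuclideanSpace ℝ (Fin m))) 1, coef g s x := by
  have hi : ∀ s, IntegrableOn (fun x => c ^ sᶜ.card * coef g s x) (ball (0 : (EuclideanSpace ℝ (Fin m))) 1) := fun s =>
    (integrableOn_coef hm hg hα hα1 hL hmα s).const_mul _
  have heq : EqOn (jac g c) (fun x => ∑ s, c ^ sᶜ.card * coef g s x) (ball (0 : (EuclideanSpace ℝ (Fin m))) 1) :=
    fun x hx => jac_eq_sum (hg.continuousOn hα) c hx
  refine ⟨IntegrableOn.congr_fun (integrable_finsetSum _ fun s _ => hi s) heq.symm measurableSet_ball,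
    ?_⟩
  rw [setIntegral_congr_fun measurableSet_ball heq, integral_finsetSum _ fun s _ => hi s]
  simp only [integral_const_mul]

theorem integral_weight_eq_zero {g : (EuclideanSpace ℝ (Fin m)) → (EuclideanSpace ℝ (Fin m))} {L α : ℝ} (hg : HolderBound g L α) (hα : 0 < α)
    (hL : 0 ≤ L) (c : ℝ) {η : (EuclideanSpace ℝ (Fin m)) → ℝ} (hη : ContDiff ℝ 1 η) {δ : ℝ} (hδ : 0 < δ)
    (hz : ∀ y ∈ thickening δ ((fun x => g x + c • x) '' closedBall (0 : (EuclideanSpace ℝ (Fin m))) 1), η y = 0) :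
    ∫ x in ball (0 : (EuclideanSpace ℝ (Fin m))) 1, η (homot g c (1, x)) * jac g c x = 0 := by
  have hev : ∀ᶠ r in 𝓝[>] (0 : ℝ), L * r ^ α < δ ∧ r < 1 := by
    refine eventually_nhdsWithin_of_eventually_nhds (Filter.Eventually.and ?_ (Iio_mem_nhds one_pos))
    have : Tendsto (fun r : ℝ => L * r ^ α) (𝓝 0) (𝓝 (L * (0 : ℝ) ^ α)) :=
      ((Real.continuousAt_rpow_const 0 α (Or.inr hα.le)).const_smul L).tendsto
    rw [Real.zero_rpow hα.ne', mul_zero] at this
    exact this.eventually_lt_const hδ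
  obtain ⟨r, ⟨hr, hr1⟩, hr0⟩ := (hev.and self_mem_nhdsWithin).exists
  replace hr0 : 0 < r := hr0
  have hkey : ∀ θ ∈ Ioo (0 : ℝ) 2, ∀ x ∈ ball (0 : (EuclideanSpace ℝ (Fin m))) 1, θ * depth x ≤ r →
      η (homot g c (θ, x)) = 0 := by
    intro θ hθ x hx hle
    obtain ⟨hd, hd1, -, -⟩ := depth_mem hx
    refine hz _ (mem_thickening_iff.2 ⟨g x + c • x, ⟨x, ball_subset_closedBall hx, rfl⟩, ?_⟩)
    have hpos : 0 < θ * depth x := mul_pos hθ.1 hd
    rw [dist_eq_norm, homot, add_sub_add_right_eq_sub]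
    refine (norm_mollify_sub_le hg hα hL hpos (by linarith [mem_ball_zero_iff.1 hx])).trans_lt ?_
    refine lt_of_le_of_lt ?_ hr
    show L * (θ * depth x) ^ α ≤ L * r ^ α
    gcongr
  refine integral_density_eq_zero (contDiffOn_homot (hg.continuousOn hα) c) hη
    (K := closedBall 0 (1 - r / 2)) (isCompact_closedBall _ _)
    (closedBall_subset_ball (by linarith)) (fun θ hθ x hx hxK => hkey θ hθ x hx ?_)
    (θ₀ := r) ⟨hr0, by linarith⟩ (fun x hx => hkey r ⟨hr0, by linarith⟩ x hx ?_)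
  · obtain ⟨hd, hd1, -, -⟩ := depth_mem hx
    simp only [mem_closedBall, dist_zero_right, not_le] at hxK
    have : depth x < r / 2 := by linarith
    nlinarith [hθ.1, hθ.2]
  · obtain ⟨hd, -, -, hd4⟩ := depth_mem hx
    nlinarith

theorem ae_jac_eq_zero {g : (EuclideanSpace ℝ (Fin m)) → (EuclideanSpace ℝ (Fin m))} (hg : ContinuousOn g (closedBall 0 2)) (c : ℝ) {S : Set (EuclideanSpace ℝ (Fin m))}
    (hS : IsCompact S) (hnull : volume S = 0) :
    ∀ᵐ x ∂volume.restrict (ball (0 : (EuclideanSpace ℝ (Fin m))) 1), homot g c (1, x) ∈ S → jac g c x = 0 := by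
  have hG : ContinuousOn (fun x => homot g c (1, x)) (ball (0 : (EuclideanSpace ℝ (Fin m))) 1) := fun x hx =>
    (hasFDerivAt_slice hg c hx).continuousAt.continuousWithinAt
  have hJ : ContinuousOn (jac g c) (ball (0 : (EuclideanSpace ℝ (Fin m))) 1) :=
    (rowsDet m).cont.comp_continuousOn (continuousOn_rows hg c)
  set A := {x : (EuclideanSpace ℝ (Fin m)) | x ∈ ball (0 : (EuclideanSpace ℝ (Fin m))) 1 ∧ homot g c (1, x) ∈ S ∧ jac g c x ≠ 0} with hA
  have hdet : ∀ x, ((fderiv ℝ (homot g c) (1, x)).comp (ContinuousLinearMap.inr ℝ ℝ (EuclideanSpace ℝ (Fin m)))).det =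
      jac g c x := fun x => (det_eq_rowsDet _).symm
  suffices h : volume A = 0 by
    rw [ae_restrict_iff' measurableSet_ball]
    filter_upwards [measure_eq_zero_iff_ae_notMem.1 h] with x hx hxb hxS
    by_contra hne
    exact hx ⟨hxb, hxS, hne⟩
  refine measure_null_of_locally_null _ fun x hx => ?_
  have hmem : ((1 : ℝ), x) ∈ Ioo (0 : ℝ) 2 ×ˢ ball (0 : (EuclideanSpace ℝ (Fin m))) 1 := ⟨by norm_num, hx.1⟩
  have hcd : ContDiffAt ℝ 1 (fun y => homot g c (1, y)) x :=
    (((contDiffOn_homot hg c).of_le one_le_two).contDiffAt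
      ((isOpen_Ioo.prod isOpen_ball).mem_nhds hmem)).comp x (contDiffAt_const.prodMk contDiffAt_id)
  have hne : ((fderiv ℝ (homot g c) (1, x)).comp (ContinuousLinearMap.inr ℝ ℝ (EuclideanSpace ℝ (Fin m)))).det ≠ 0 := by
    rw [hdet]; exact hx.2.2
  have hstrict : HasStrictFDerivAt (fun y => homot g c (1, y))
      (((fderiv ℝ (homot g c) (1, x)).comp
        (ContinuousLinearMap.inr ℝ ℝ (EuclideanSpace ℝ (Fin m)))).toContinuousLinearEquivOfDetNeZero hne : (EuclideanSpace ℝ (Fin m)) →L[ℝ] (EuclideanSpace ℝ (Fin m))) x := by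
    rw [ContinuousLinearMap.coe_toContinuousLinearEquivOfDetNeZero]
    exact hcd.hasStrictFDerivAt' (hasFDerivAt_slice hg c hx.1) one_ne_zero
  set P := hstrict.toOpenPartialHomeomorph _
  set O := P.source ∩ (ball (0 : (EuclideanSpace ℝ (Fin m))) 1 ∩ jac g c ⁻¹' {0}ᶜ)
  have hO : IsOpen O := P.open_source.inter
    (hJ.isOpen_inter_preimage isOpen_ball isOpen_compl_singleton)
  have hxO : x ∈ O := ⟨hstrict.mem_toOpenPartialHomeomorph_source, hx.1, hx.2.2⟩
  set u := O \ (ball (0 : (EuclideanSpace ℝ (Fin m))) 1 ∩ (fun y => homot g c (1, y)) ⁻¹' Sᶜ) with hu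
  have humeas : MeasurableSet u := hO.measurableSet.diff
    (hG.isOpen_inter_preimage isOpen_ball hS.isClosed.isOpen_compl).measurableSet
  have husub : ∀ y ∈ u, y ∈ ball (0 : (EuclideanSpace ℝ (Fin m))) 1 ∧ homot g c (1, y) ∈ S ∧ jac g c y ≠ 0 := fun y hy =>
    ⟨hy.1.2.1, by_contra fun h => hy.2 ⟨hy.1.2.1, h⟩, hy.1.2.2⟩
  refine ⟨u, ?_, ?_⟩
  · filter_upwards [mem_nhdsWithin_of_mem_nhds (hO.mem_nhds hxO), self_mem_nhdsWithin] with y hy hyA
    exact ⟨hy, fun h => h.2 hyA.2.1⟩
  · have hinj : InjOn (fun y => homot g c (1, y)) u := fun y hy z hz h =>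
      P.injOn hy.1.1 hz.1.1 (by simpa [P] using h)
    have h0 := lintegral_abs_det_fderiv_eq_addHaar_image volume humeas
      (fun y hy => (hasFDerivAt_slice hg c (husub y hy).1).hasFDerivWithinAt) hinj
    rw [measure_mono_null (image_subset_iff.2 fun y hy => (husub y hy).2.1) hnull] at h0
    rw [lintegral_eq_zero_iff'] at h0
    · by_contra hne0
      have : ∀ᵐ y ∂volume.restrict u, False := by
        filter_upwards [h0, ae_restrict_mem humeas] with y hy hyu
        simp only [Pi.zero_apply, ENNReal.ofReal_eq_zero, abs_nonpos_iff, hdet] at hy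
        exact (husub y hyu).2.2 hy
      rw [eventually_false_iff_eq_bot, ae_eq_bot, Measure.restrict_eq_zero] at this
      exact hne0 this
    · simp only [hdet]
      exact (ENNReal.continuous_ofReal.comp_continuousOn
        (hJ.mono fun y hy => (husub y hy).1).abs).aemeasurable humeas

theorem integral_jac_eq_zero {g : (EuclideanSpace ℝ (Fin m)) → (EuclideanSpace ℝ (Fin m))} {L α : ℝ} (hm : 1 ≤ m) (hg : HolderBound g L α)
    (hα : 0 < α) (hα1 : α ≤ 1) (hL : 0 ≤ L) (hmα : (m : ℝ) * (1 - α) < 1) (c : ℝ)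
    (hnull : volume ((fun x => g x + c • x) '' closedBall (0 : (EuclideanSpace ℝ (Fin m))) 1) = 0) :
    ∫ x in ball (0 : (EuclideanSpace ℝ (Fin m))) 1, jac g c x = 0 := by
  have hgc := hg.continuousOn hα
  set S := (fun x => g x + c • x) '' closedBall (0 : (EuclideanSpace ℝ (Fin m))) 1 with hSdef
  have hS : IsCompact S := (isCompact_closedBall _ _).image_of_continuousOn
    ((hgc.mono (closedBall_subset_closedBall one_le_two)).add
      (continuous_id.const_smul c).continuousOn)
  obtain ⟨f, hf1, hf2, hf3⟩ :=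
    hS.isClosed.isOpen_compl.exists_contDiff_support_eq (n := 1)
  set η : ℕ → (EuclideanSpace ℝ (Fin m)) → ℝ := fun k y => Real.smoothTransition (((k : ℝ) + 1) * f y - 1) with hη
  have hηd : ∀ k, ContDiff ℝ 1 (η k) := fun k =>
    Real.smoothTransition.contDiff.comp ((contDiff_const.mul hf2).sub contDiff_const)
  have hzero : ∀ k, ∫ x in ball (0 : (EuclideanSpace ℝ (Fin m))) 1, η k (homot g c (1, x)) * jac g c x = 0 := by
    intro k
    obtain ⟨δ, hδ, hsub⟩ := hS.exists_thickening_subset_open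
      (isOpen_lt hf2.continuous (continuous_const (y := ((k : ℝ) + 1)⁻¹))) (fun y hy => by
        show f y < ((k : ℝ) + 1)⁻¹
        rw [show f y = 0 by simpa using fun h => (hf1 ▸ Function.mem_support.2 h : y ∈ Sᶜ) hy]
        positivity)
    refine integral_weight_eq_zero hg hα hL c (hηd k) hδ fun y hy => ?_
    refine Real.smoothTransition.zero_of_nonpos ?_
    have h : f y < ((k : ℝ) + 1)⁻¹ := hsub hy
    have h' := mul_lt_mul_of_pos_left h (by positivity : (0 : ℝ) < (k : ℝ) + 1)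
    rw [mul_inv_cancel₀ (by positivity)] at h'
    linarith
  have hG : ContinuousOn (fun x => homot g c (1, x)) (ball (0 : (EuclideanSpace ℝ (Fin m))) 1) := fun x hx =>
    (hasFDerivAt_slice hgc c hx).continuousAt.continuousWithinAt
  have hint := (integral_jac_eq hm hg hα hα1 hL hmα c).1
  have hlim := tendsto_integral_of_dominated_convergence (μ := volume.restrict (ball (0 : (EuclideanSpace ℝ (Fin m))) 1))
    (F := fun k x => η k (homot g c (1, x)) * jac g c x) (f := jac g c) (fun x => ‖jac g c x‖)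
    (fun k => (((hηd k).continuous.comp_continuousOn hG).aestronglyMeasurable
      measurableSet_ball).mul hint.aestronglyMeasurable)
    hint.norm
    (fun k => Eventually.of_forall fun x => by
      rw [norm_mul, Real.norm_of_nonneg (Real.smoothTransition.nonneg _)]
      exact mul_le_of_le_one_left (norm_nonneg _) (Real.smoothTransition.le_one _))
    ?_
  · simp only [hzero] at hlim
    exact tendsto_nhds_unique hlim tendsto_const_nhds
  · filter_upwards [ae_jac_eq_zero hgc c hS hnull] with x hx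
    by_cases hxS : homot g c (1, x) ∈ S
    · simp [hx hxS]
    · have hpos : 0 < f (homot g c (1, x)) := by
        refine lt_of_le_of_ne (hf3 (mem_range_self _)).1 (Ne.symm ?_)
        exact Function.mem_support.1 (hf1 ▸ hxS : homot g c (1, x) ∈ Function.support f)
      refine tendsto_const_nhds.congr' ?_
      obtain ⟨n, hn⟩ := exists_nat_ge (2 / f (homot g c (1, x)))
      filter_upwards [eventually_ge_atTop n] with k hk
      have hk' : (n : ℝ) ≤ k := Nat.cast_le.2 hk
      rw [div_le_iff₀ hpos] at hn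
      simp only [hη]
      rw [Real.smoothTransition.one_of_one_le (by nlinarith), one_mul]

/-- Only finitely many slices are null. -/
theorem finite_null_slices {g : (EuclideanSpace ℝ (Fin m)) → (EuclideanSpace ℝ (Fin m))} {L α : ℝ} (hm : 1 ≤ m) (hg : HolderBound g L α)
    (hα : 0 < α) (hα1 : α ≤ 1) (hL : 0 ≤ L) (hmα : (m : ℝ) * (1 - α) < 1) :
    {c : ℝ | volume ((fun x => g x + c • x) '' closedBall (0 : (EuclideanSpace ℝ (Fin m))) 1) = 0}.Finite := by
  set P : ℝ[X] := ∑ s : Finset (Fin m),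
    Polynomial.C (∫ x in ball (0 : (EuclideanSpace ℝ (Fin m))) 1, coef g s x) * Polynomial.X ^ sᶜ.card with hP
  have hcoef : P.coeff m = volume.real (ball (0 : (EuclideanSpace ℝ (Fin m))) 1) := by
    rw [hP, Polynomial.finsetSum_coeff, Finset.sum_eq_single ∅]
    · have h1 : ∀ x, coef g ∅ x = 1 := fun x => by
        simp only [coef, Finset.piecewise_empty]
        rw [rowsDet_apply]
        convert Matrix.det_one (n := Fin m) (R := ℝ) using 2
        ext i k
        simp [Matrix.one_apply, eq_comm]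
      simp [h1, Polynomial.coeff_C_mul, Polynomial.coeff_X_pow]
    · intro s _ hs
      have hlt : sᶜ.card < m := by
        have h1 := Finset.card_compl_add_card s
        have h2 := Finset.card_pos.2 (Finset.nonempty_of_ne_empty hs)
        rw [Fintype.card_fin] at h1
        omega
      simp [Polynomial.coeff_C_mul, Polynomial.coeff_X_pow, hlt.ne']
    · simp
  have hPne : P ≠ 0 := fun h => by
    rw [h, Polynomial.coeff_zero] at hcoef
    exact (ENNReal.toReal_pos (measure_ball_pos volume (0 : (EuclideanSpace ℝ (Fin m))) one_pos).ne'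
      measure_ball_lt_top.ne).ne hcoef
  refine (Polynomial.finite_setOfPred_isRoot hPne).subset fun c hc => ?_
  show P.IsRoot c
  have h := integral_jac_eq_zero hm hg hα hα1 hL hmα c hc
  rw [(integral_jac_eq hm hg hα hα1 hL hmα c).2] at h
  rw [Polynomial.IsRoot, hP, Polynomial.eval_finsetSum, ← h]
  refine Finset.sum_congr rfl fun s _ => ?_
  simp only [Polynomial.eval_mul, Polynomial.eval_C, Polynomial.eval_pow, Polynomial.eval_X]
  exact mul_comm _ _

end Vale.Agent.P127.Holder
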